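import Vale.Agent.P064.Main

namespace Vale.Agent.Results.P064.NearLog

open Vale.Agent.P064

theorem result : ∃ C : ℝ, ∀ n : ℕ, 2 ≤ n → ∀ (V : Type) [Fintype V] (H : SimpleGraph V),
    Fintype.card V ≤ n → H.edgeSet.Nonempty →
      pc n H ≤ C * pE n H * Real.log n * Real.exp (C * √(Real.log (Real.log n))) :=
  main

end Vale.Agent.Results.P064.NearLog
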